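import Vale.Agent.P145.JG.Pre
import Vale.Agent.P145.X.All

/-!
The scaling limit in all Jordan domains.
-/

namespace Vale.Agent.P145.JG

theorem jordan {J U : ℝ} (hUJ : U ≤ J) (hself : Real.sinh (2 * J) = Real.exp (-2 * U)) :
    ∃ s : ℝ, 0 < s ∧
      ∀ D : Set (ℝ × ℝ), JordanDomain D → Conv (1 / √(1 + Real.exp (4 * U))) s D :=
  jordan_of (fun _ h1 h2 => X.conv_exists h1 h2) hUJ hself

end Vale.Agent.P145.JG
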