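import Vale.Agent.P145.JG.Pre
import Vale.Agent.P145.X.All
import Vale.Agent.P145.X.Val

/-!
The scaling limit in all Jordan domains with the exact constant, on the whole self-dual line.
-/

namespace Vale.Agent.P145.JG

/-- The inputs of the block Top hold for `1 ≤ c ≤ 2`. -/
theorem inOK {c : ℝ} (hc : 1 ≤ c) (hc2 : c ≤ 2) : X.InOK c :=
  fun _ _ h _ hδ hl => X.PL.inputs hc hc2 h hδ hl

/-- The exact constant at all points of the self-dual line, from the value of the constant of the
six-vertex model for `1 < c ≤ 2`. -/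
theorem jordan_all_of (hV : ∀ c : ℝ, 1 < c → c ≤ 2 → P152.GFF.MainV c) {J U : ℝ} (hUJ : U ≤ J)
    (hself : Real.sinh (2 * J) = Real.exp (-2 * U)) (D : Set (ℝ × ℝ)) (hD : JordanDomain D) :
    Conv (1 / √(1 + Real.exp (4 * U)))
      (1 / (Real.pi * √(8 / Real.pi * Real.arcsin (√(1 + Real.exp (4 * U)) / 2)))) D := by
  obtain ⟨h1, h2⟩ := c_range hUJ hself
  have h0 : 0 < Real.exp (4 * U) := Real.exp_pos _
  have h1' : 1 < √(1 + Real.exp (4 * U)) := by
    rw [Real.lt_sqrt (by norm_num)]; linarith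
  have ht : 1 / √(1 + Real.exp (4 * U)) = (1 + Real.exp (4 * U)) ^ (-(1 / 2) : ℝ) := by
    rw [Real.rpow_neg (by linarith), Real.sqrt_eq_rpow, one_div]
  exact conv_of_dom (X.conv_U (exp_le_three hUJ hself) (inOK h1 h2) (X.val_of_mainV (hV _ h1' h2))
    ht rfl D hD)

end Vale.Agent.P145.JG
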