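import Vale.Agent.P145.JG.FinalAll
import Vale.Agent.P152.GFF.ValL

/-!
The scaling limit in all Jordan domains, with the value of the constant, on the whole self-dual
line.
-/

namespace Vale.Agent.P145.JG

lemma sin_small : 2 * Real.sin (Real.pi / 48) < 1 := by
  have h1 : Real.sin (Real.pi / 48) < Real.pi / 48 := Real.sin_lt (by positivity)
  have h2 := Real.pi_lt_four
  linarith

/-- **The theorem for Jordan domains.** -/
theorem jordan_full {J U : ℝ} (hUJ : U ≤ J) (hself : Real.sinh (2 * J) = Real.exp (-2 * U))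
    (D : Set (ℝ × ℝ)) (hD : JordanDomain D) :
    Conv (1 / √(1 + Real.exp (4 * U)))
      (1 / (Real.pi * √(8 / Real.pi * Real.arcsin (√(1 + Real.exp (4 * U)) / 2)))) D :=
  jordan_all_of (fun _ h1 h2 => P152.GFF.mainV_fin (sin_small.trans h1) h2) hUJ hself D hD

end Vale.Agent.P145.JG
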