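import Vale.Agent.P145.JG.Pre
import Vale.Agent.P145.X.All
import Vale.Agent.P145.X.Val
import Vale.Agent.P152.GFF.ValFin

/-!
The scaling limit in all Jordan domains, with the value of the constant for `0 ≤ U`.
-/

namespace Vale.Agent.P145.JG

theorem jordan_val {J U : ℝ} (hUJ : U ≤ J) (hself : Real.sinh (2 * J) = Real.exp (-2 * U)) :
    ∃ s : ℝ, 0 < s ∧ (0 ≤ U →
        s = 1 / (Real.pi * √(8 / Real.pi * Real.arcsin (√(1 + Real.exp (4 * U)) / 2)))) ∧
      ∀ D : Set (ℝ × ℝ), JordanDomain D → Conv (1 / √(1 + Real.exp (4 * U))) s D := by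
  refine jordan_val_of (fun c h1 h2 => ?_) hUJ hself
  obtain ⟨P, κ, h⟩ := FA.exists_plIn h1 h2
  exact ⟨κ, h.κpos, fun h3 => X.val_of_mainV (P152.GFF.mainV_all h3 h2) P κ h,
    fun s hs => X.PL.conv h1 h2 h hs⟩

end Vale.Agent.P145.JG
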