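import Vale.Agent.P145.JG.Transfer

/-!
The self-dual line in terms of `c = √(1 + e^{4U})`, and the hand-in on Jordan domains from the
general theorem.
-/

namespace Vale.Agent.P145.JG

/-- On the self-dual line with `U ≤ J` one has `e^{4U} ≤ 3`. -/
lemma exp_le_three {J U : ℝ} (hUJ : U ≤ J) (hself : Real.sinh (2 * J) = Real.exp (-2 * U)) :
    Real.exp (4 * U) ≤ 3 := by
  have h1 : Real.sinh (2 * U) ≤ Real.exp (-2 * U) := by
    rw [← hself]
    exact Real.sinh_le_sinh.2 (by linarith)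
  rw [Real.sinh_eq, show -(2 * U) = -2 * U by ring] at h1
  have h2 : Real.exp (2 * U) ≤ 3 * Real.exp (-2 * U) := by linarith
  have h3 : Real.exp (4 * U) = Real.exp (2 * U) * Real.exp (2 * U) := by
    rw [← Real.exp_add]; ring_nf
  have h4 : Real.exp (-2 * U) * Real.exp (2 * U) = 1 := by
    rw [← Real.exp_add]; ring_nf; exact Real.exp_zero
  have h5 := mul_le_mul_of_nonneg_right h2 (Real.exp_pos (2 * U)).le
  rw [h3]
  linarith

lemma c_range {J U : ℝ} (hUJ : U ≤ J) (hself : Real.sinh (2 * J) = Real.exp (-2 * U)) :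
    1 ≤ √(1 + Real.exp (4 * U)) ∧ √(1 + Real.exp (4 * U)) ≤ 2 := by
  have h3 := exp_le_three hUJ hself
  have h0 := Real.exp_pos (4 * U)
  refine ⟨Real.one_le_sqrt.2 (by linarith), ?_⟩
  rw [Real.sqrt_le_left (by norm_num)]
  linarith

lemma c_hi {U : ℝ} (hU : 0 ≤ U) : √2 ≤ √(1 + Real.exp (4 * U)) := by
  have h2 : 1 ≤ Real.exp (4 * U) := Real.one_le_exp (by linarith)
  exact Real.sqrt_le_sqrt (by linarith)

/-- The constant. -/
lemma s_val {c κ g s : ℝ} (hc : 0 < c) (hs : 0 < s) (h : κ = 1 / Real.arcsin (c / 2))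
    (hκ : κ = s ^ 2 * (8 * Real.pi)) (hg : g = 8 / Real.pi * Real.arcsin (c / 2)) :
    s = 1 / (Real.pi * √g) := by
  have hpi := Real.pi_pos
  have ha : 0 < Real.arcsin (c / 2) := Real.arcsin_pos.2 (by linarith)
  have hg0 : 0 < g := by rw [hg]; positivity
  have h2 : 0 < 1 / (Real.pi * √g) := by positivity
  have h3 : s ^ 2 = (1 / (Real.pi * √g)) ^ 2 := by
    rw [div_pow, mul_pow, Real.sq_sqrt hg0.le, hg]
    have h4 : s ^ 2 = 1 / Real.arcsin (c / 2) / (8 * Real.pi) := by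
      rw [← h, hκ]; field_simp
    rw [h4]
    field_simp
  exact (pow_left_inj₀ hs.le h2.le two_ne_zero).1 h3

theorem jordan_of {J U : ℝ} (hX : ∀ c : ℝ, 1 ≤ c → c ≤ 2 → ∃ κ : ℝ, 0 < κ ∧
      ∀ s : ℝ, κ = s ^ 2 * (2 * Real.pi) →
        ∀ D : Set (ℝ × ℝ), Dom.JordanDomain D → Dom.Conv (1 / c) s D)
    (hUJ : U ≤ J) (hself : Real.sinh (2 * J) = Real.exp (-2 * U)) :
    ∃ s : ℝ, 0 < s ∧
      ∀ D : Set (ℝ × ℝ), JordanDomain D → Conv (1 / √(1 + Real.exp (4 * U))) s D := by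
  obtain ⟨h1, h2⟩ := c_range hUJ hself
  obtain ⟨κ, hκ, h⟩ := hX _ h1 h2
  exact conv_of_kappa hκ h

/-- With the value of the constant under the condition `0 ≤ U`. -/
theorem jordan_val_of {J U : ℝ} (hX : ∀ c : ℝ, 1 ≤ c → c ≤ 2 → ∃ κ : ℝ, 0 < κ ∧
      (√2 ≤ c → κ = 1 / Real.arcsin (c / 2)) ∧
      ∀ s : ℝ, κ = s ^ 2 * (8 * Real.pi) →
        ∀ D : Set (ℝ × ℝ), Dom.JordanDomain D → Dom.Conv (1 / c) s D)
    (hUJ : U ≤ J) (hself : Real.sinh (2 * J) = Real.exp (-2 * U)) :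
    ∃ s : ℝ, 0 < s ∧ (0 ≤ U →
        s = 1 / (Real.pi * √(8 / Real.pi * Real.arcsin (√(1 + Real.exp (4 * U)) / 2)))) ∧
      ∀ D : Set (ℝ × ℝ), JordanDomain D → Conv (1 / √(1 + Real.exp (4 * U))) s D := by
  obtain ⟨h1, h2⟩ := c_range hUJ hself
  obtain ⟨κ, hκ, hv, h⟩ := hX _ h1 h2
  have h8 : (0 : ℝ) < 8 * Real.pi := by positivity
  have hs : 0 < √(κ / (8 * Real.pi)) := Real.sqrt_pos.2 (by positivity)
  have hk : κ = √(κ / (8 * Real.pi)) ^ 2 * (8 * Real.pi) := by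
    rw [Real.sq_sqrt (by positivity)]
    field_simp
  exact ⟨_, hs, fun hU => s_val (by linarith) hs (hv (c_hi hU)) hk rfl,
    fun D hD => conv_of_dom (h _ hk D hD)⟩

end Vale.Agent.P145.JG
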