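import Vale.Agent.P145.JG.Defs
import Vale.Agent.P145.Dom.Defs

/-!
The definitions of `JG` agree with those of `Dom`, `FP` and `PT`.
-/

namespace Vale.Agent.P145.JG

lemma jordan_iff (D : Set (ℝ × ℝ)) : JordanDomain D ↔ Dom.JordanDomain D := Iff.rfl

lemma approx_dom {D : Set (ℝ × ℝ)} {δ : ℕ → ℝ} {N : ℕ → ℕ} {p : ∀ n, ZMod (N n) → ℤ × ℤ}
    {F : ℕ → Finset (ℤ × ℤ)} (h : Approx D δ N p F) : Dom.Approx D δ N p F :=
  ⟨h.pos, h.lim, h.poly, h.encl, h.near, h.cpt⟩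

lemma law_eq (t : ℝ) {n : ℕ} (p : ZMod n → ℤ × ℤ) (F : Finset (ℤ × ℤ)) :
    law t p F = Dom.law t p F := rfl

lemma isHt_iff {n : ℕ} (p : ZMod n → ℤ × ℤ) (F : Finset (ℤ × ℤ)) (σ : Conf) (H : Site → ℝ) :
    IsHt p F σ H ↔ Dom.IsHt p F σ H := Iff.rfl

lemma fldD_eq (F : Finset (ℤ × ℤ)) (H : Site → ℝ) (δ : ℝ) (φ : ℝ × ℝ → ℝ) :
    fldD F H δ φ = Dom.fldD F H δ φ := rfl

lemma testOn_iff (D : Set (ℝ × ℝ)) (φ : ℝ × ℝ → ℝ) : TestOn D φ ↔ PT.TestOn D φ := Iff.rfl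

lemma dirCov_eq (D : Set (ℝ × ℝ)) (φ ψ : ℝ × ℝ → ℝ) : dirCov D φ ψ = Dom.dirCov D φ ψ := rfl

theorem conv_of_dom {t s : ℝ} {D : Set (ℝ × ℝ)} (h : Dom.Conv t s D) : Conv t s D := by
  intro δ N p F hA
  exact h δ N p F (approx_dom hA)

/-- From the convergence for all Jordan domains with `κ = s² 2π`. -/
theorem conv_of_kappa {t κ : ℝ} (hκ : 0 < κ)
    (h : ∀ s : ℝ, κ = s ^ 2 * (2 * Real.pi) → ∀ D : Set (ℝ × ℝ), Dom.JordanDomain D →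
      Dom.Conv t s D) :
    ∃ s : ℝ, 0 < s ∧ ∀ D : Set (ℝ × ℝ), JordanDomain D → Conv t s D := by
  have h2 : (0 : ℝ) < 2 * Real.pi := by positivity
  refine ⟨√(κ / (2 * Real.pi)), Real.sqrt_pos.2 (by positivity), fun D hD =>
    conv_of_dom (h _ ?_ D hD)⟩
  rw [Real.sq_sqrt (by positivity)]
  field_simp

end Vale.Agent.P145.JG
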